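import Vale.Agent.P032.T.ChiFinal

namespace Vale.Agent.Results.P032.AllColouringsOpen

/-- For every `k`: the Euclidean plane has a proper colouring with `k` colours (arbitrary colour
classes) if and only if `6 ≤ k` and there are `k` pairwise disjoint OPEN sets, none of them
containing two points at distance one, whose union is dense in the plane. -/
theorem result (k : ℕ) :
    (∃ c : EuclideanSpace ℝ (Fin 2) → Fin k,
      ∀ x y : EuclideanSpace ℝ (Fin 2), dist x y = 1 → c x ≠ c y) ↔
    (6 ≤ k ∧ ∃ U : Fin k → Set (EuclideanSpace ℝ (Fin 2)), (∀ i, IsOpen (U i)) ∧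
      (∀ i j, i ≠ j → Disjoint (U i) (U j)) ∧
      (∀ i, ∀ x ∈ U i, ∀ y ∈ U i, dist x y ≠ 1) ∧ Dense (⋃ i, U i)) := by
  let φ : ℂ ≃ₗᵢ[ℝ] EuclideanSpace ℝ (Fin 2) := Complex.orthonormalBasisOneI.repr
  constructor
  · rintro ⟨c, hc⟩
    have hc' : ∀ x y : ℂ, dist x y = 1 → c (φ x) ≠ c (φ y) := fun x y h => hc _ _ (by
      rw [φ.dist_map]; exact h)
    refine ⟨Vale.Agent.P032.T.chi_six k (fun z => c (φ z)) hc', ?_⟩
    obtain ⟨c', hm, hp⟩ := Vale.Agent.P032.T.transfer (fun z => c (φ z)) hc'
    obtain ⟨D, hD, hu, hdis, hdense⟩ := Vale.Agent.P032.M.denseOpen k c' hm hp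
    refine ⟨fun i => φ.symm ⁻¹' (D i), fun i => (hD i).preimage φ.symm.continuous, ?_, ?_, ?_⟩
    · intro i j hij
      exact (hdis i j hij).preimage _
    · intro i x hx y hy h
      exact hu i _ hx _ hy (by rw [φ.symm.dist_map]; exact h)
    · rw [← Set.preimage_iUnion]
      exact hdense.preimage φ.symm.toHomeomorph.isOpenMap
  · rintro ⟨-, U, hU, -, hunit, hdense⟩
    let G : SimpleGraph (EuclideanSpace ℝ (Fin 2)) :=
      { Adj := fun x y => dist x y = 1
        symm := ⟨fun x y h => by rw [dist_comm]; exact h⟩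
        loopless := ⟨fun x h => by simp at h⟩ }
    have key : Nonempty (G →g (⊤ : SimpleGraph (Fin k))) := by
      apply SimpleGraph.nonempty_hom_of_forall_finite_subgraph_hom
      intro G' hfin
      apply Classical.choice
      have hopen : ∀ v : EuclideanSpace ℝ (Fin 2), IsOpen {t | v + t ∈ ⋃ i, U i} := fun v =>
        (isOpen_iUnion hU).preimage (continuous_const.add continuous_id)
      have hd : ∀ v : EuclideanSpace ℝ (Fin 2), Dense {t | v + t ∈ ⋃ i, U i} := fun v =>
        hdense.preimage (Homeomorph.addLeft v).isOpenMap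
      have hall : Dense (⋂ v ∈ G'.verts, {t | v + t ∈ ⋃ i, U i}) :=
        dense_biInter_of_isOpen (fun v _ => hopen v) hfin.countable (fun v _ => hd v)
      obtain ⟨t, ht⟩ := hall.nonempty
      have ht' : ∀ v : G'.verts, ∃ i, (v : EuclideanSpace ℝ (Fin 2)) + t ∈ U i := by
        intro v
        have := Set.mem_iInter₂.1 ht v v.2
        exact Set.mem_iUnion.1 this
      choose f hf using ht'
      refine ⟨⟨f, ?_⟩⟩
      intro u v huv
      rw [SimpleGraph.top_adj]
      intro h
      have h1 : dist (u : EuclideanSpace ℝ (Fin 2)) v = 1 := G'.adj_sub huv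
      apply hunit (f u) _ (hf u) _ (h ▸ hf v)
      rw [dist_add_right]
      exact h1
    obtain ⟨F⟩ := key
    refine ⟨F, fun x y h => ?_⟩
    have : (⊤ : SimpleGraph (Fin k)).Adj (F x) (F y) := F.map_rel (show G.Adj x y from h)
    exact this

end Vale.Agent.Results.P032.AllColouringsOpen
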