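import Vale.Agent.P032.T.ChiFinal

namespace Vale.Agent.Results.P032.AllColouringsSix

/-- The chromatic number of the plane is at least six: if `c` is ANY colouring of the Euclidean
plane with `k` colours (no measurability or other regularity of the colour classes is assumed)
such that two points at distance one never have the same colour, then `6 ≤ k`. -/
theorem result {k : ℕ} (c : EuclideanSpace ℝ (Fin 2) → Fin k)
    (hc : ∀ x y : EuclideanSpace ℝ (Fin 2), dist x y = 1 → c x ≠ c y) : 6 ≤ k := by
  let φ : ℂ ≃ₗᵢ[ℝ] EuclideanSpace ℝ (Fin 2) := Complex.orthonormalBasisOneI.repr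
  refine Vale.Agent.P032.T.chi_six k (fun z => c (φ z)) fun x y h => hc _ _ ?_
  rw [φ.dist_map]
  exact h

end Vale.Agent.Results.P032.AllColouringsSix
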