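import Vale.Agent.P032.T.ChiFinal

open Set

namespace Vale.Agent.Results.P032.AllColouringsTransfer

/-- If the plane has any proper colouring with `k` colours (no measurability or other regularity
of the colour classes is assumed), then `6 ≤ k`, and there are `k` pairwise disjoint open sets,
none of which contains two points at distance one, whose union is dense in the plane. -/
theorem result {k : ℕ} (c : EuclideanSpace ℝ (Fin 2) → Fin k)
    (hc : ∀ x y : EuclideanSpace ℝ (Fin 2), dist x y = 1 → c x ≠ c y) :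
    6 ≤ k ∧ ∃ D : Fin k → Set (EuclideanSpace ℝ (Fin 2)), (∀ i, IsOpen (D i)) ∧
      (∀ i j, i ≠ j → Disjoint (D i) (D j)) ∧ (∀ i, ∀ x ∈ D i, ∀ y ∈ D i, dist x y ≠ 1) ∧
      Dense (⋃ i, D i) := by
  let φ : ℂ ≃ₗᵢ[ℝ] EuclideanSpace ℝ (Fin 2) := Complex.orthonormalBasisOneI.repr
  obtain ⟨c', hc', hp⟩ := Vale.Agent.P032.T.transfer (fun z => c (φ z)) fun x y h => hc _ _ (by
    rw [φ.dist_map]
    exact h)
  obtain ⟨D, hD, hu, hdis, hdense⟩ := Vale.Agent.P032.M.denseOpen k c' hc' hp
  refine ⟨Vale.Agent.P032.M.six_le c' hc' hp, fun i => φ.symm ⁻¹' (D i), fun i => (hD i).preimage φ.symm.continuous, ?_, ?_, ?_⟩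
  · intro i j hij
    exact (hdis i j hij).preimage _
  · intro i x hx y hy hxy
    exact hu i _ hx _ hy (by rw [φ.symm.dist_map]; exact hxy)
  · rw [← preimage_iUnion]
    exact hdense.preimage φ.symm.toHomeomorph.isOpenMap

end Vale.Agent.Results.P032.AllColouringsTransfer
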