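import Vale.Agent.P032.T.ChiFinal

namespace Vale.Agent.Results.P032.AllFiniteSix

/-- There is a finite set `S` of points of the Euclidean plane which cannot be properly coloured
with five colours: the unit-distance graph on `S` has chromatic number at least six. -/
theorem result : ∃ S : Finset (EuclideanSpace ℝ (Fin 2)),
    ∀ c : EuclideanSpace ℝ (Fin 2) → Fin 5, ∃ x ∈ S, ∃ y ∈ S, dist x y = 1 ∧ c x = c y := by
  classical
  by_contra hcon
  push Not at hcon
  let G : SimpleGraph (EuclideanSpace ℝ (Fin 2)) :=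
    { Adj := fun x y => dist x y = 1
      symm := ⟨fun x y h => by rw [dist_comm]; exact h⟩
      loopless := ⟨fun x h => by simp at h⟩ }
  have hhom : ∀ G' : G.Subgraph, G'.verts.Finite → Nonempty (G'.coe →g (⊤ : SimpleGraph (Fin 5))) := by
    intro G' hG'
    obtain ⟨c, hc⟩ := hcon hG'.toFinset
    refine ⟨⟨fun v => c v, ?_⟩⟩
    intro a b hab
    have hadj : dist (a : EuclideanSpace ℝ (Fin 2)) b = 1 := G'.adj_sub hab
    exact hc a (by simp) b (by simp) hadj
  have hG : Nonempty (G →g (⊤ : SimpleGraph (Fin 5))) :=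
    SimpleGraph.nonempty_hom_of_forall_finite_subgraph_hom fun G' h => (hhom G' h).some
  obtain ⟨f⟩ := hG
  let φ : ℂ ≃ₗᵢ[ℝ] EuclideanSpace ℝ (Fin 2) := Complex.orthonormalBasisOneI.repr
  have h6 : 6 ≤ 5 := Vale.Agent.P032.T.chi_six 5 (fun z => f (φ z)) fun x y h => by
    have h1 : G.Adj (φ x) (φ y) := by
      show dist (φ x) (φ y) = 1
      rw [φ.dist_map]
      exact h
    exact f.map_adj h1
  omega

end Vale.Agent.Results.P032.AllFiniteSix
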