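import Vale.Agent.P032.M.Fin

namespace Vale.Agent.Results.P032.MeasurableSix

open MeasureTheory

/-- Let the Euclidean plane be coloured with `k` colours such that every colour class is Lebesgue
measurable and such that, off some Lebesgue null set, two points at distance one never have the
same colour. Then `6 ≤ k`. With `D = univ` this says that a proper colouring of the plane whose
colour classes are all Lebesgue measurable uses at least six colours. -/
theorem result {k : ℕ} (c : EuclideanSpace ℝ (Fin 2) → Fin k)
    (hm : ∀ i, NullMeasurableSet (c ⁻¹' {i}) volume)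
    (D : Set (EuclideanSpace ℝ (Fin 2))) (hD : volume Dᶜ = 0)
    (hc : ∀ x ∈ D, ∀ y ∈ D, dist x y = 1 → c x ≠ c y) : 6 ≤ k := by
  obtain ⟨c', hc', hp'⟩ := Vale.Agent.P032.M.exists_proper c hm D hD hc
  exact Vale.Agent.P032.M.six_le c' hc' hp'

end Vale.Agent.Results.P032.MeasurableSix
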